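import Crest.Agent.R302.NuE

/-!
# Row 302: the soft wall `G` (collects `NuD`, `NuA`, `NuB`, `NuC`, `NuE`)
-/
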